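import Vale.Agent.P004F.Ra.Lv
import Vale.Agent.P004F.En.Lh

/-! # P004F (FRAME), row VAN: the local cohomology has bounded exponent -/

set_option linter.all false

open NumberField Matrix

noncomputable section

namespace Vale.Agent.P004F.Va

open Vale.Agent.P022 Vale.Agent.P004K
open Vale.Agent.P027M.S (Inert)
open Vale.Agent.P022D.W (dec inP_le_dec conj_inP)
open Vale.Agent.P022.H443 (inP)
open Vale.Agent.P022E.GW (Ov)
open Vale.Agent.P022K.CH.Loc (WMod chi_data)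
open P004S (nu)
open P004T (ds)
open Pr (ac ac_add ac_smul ac_zero)
open En (Wd wd_comm)
open Ra (ac_mul ac_one ac_sm)

variable {R M : Type} [CommRing R] [AddCommGroup M] [Module R M] {l : ℕ} {P : Ideal (𝓞 Qb)}
  {A : GQ →* M2 ℤ_[2]} {f : ℤ_[2] →+* R} {a : GQ → M2 R} {x y : GQ → Fin 2 → M} {g s w : GQ}

theorem ac_s1 (B : M2 R) (m : Fin 2 → M) : ac (B - 1) m = ac B m - m := by
  funext i
  simp [ac, sub_smul, one_apply, Finset.sum_sub_distrib]

theorem ac_sub (B : M2 R) (m n : Fin 2 → M) : ac B (m - n) = ac B m - ac B n :=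
  funext fun i => by simp only [ac, Pi.sub_apply, smul_sub, Finset.sum_sub_distrib]

theorem add_ac (B C : M2 R) (m : Fin 2 → M) : ac (B + C) m = ac B m + ac C m :=
  funext fun i => by simp only [ac, Pi.add_apply, Matrix.add_apply, add_smul, Finset.sum_add_distrib]

theorem det_kill {B : M2 R} {v : Fin 2 → M} (h : ac B v = 0) : B.det • v = 0 := by
  rw [← ac_one (R := R) v, ← ac_sm, ← adjugate_mul, ac_mul, h, ac_zero]

theorem wd_mul (o : Ov l P) (hg : g ∈ inP P) (hs : s ∈ inP P) (h : Wd l g) (k : Wd l s) :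
    Wd l (g * s) := fun U n hU => by
  obtain ⟨_, _, _, χ, -, e, -⟩ := chi_data U hU o
  exact (e (⟨g, hg⟩ * ⟨s, hs⟩)).1 (by
    rw [map_mul, (e ⟨g, hg⟩).2 (h U n hU), (e ⟨s, hs⟩).2 (k U n hU), mul_one])

theorem Wd.pow (k : Wd l w) {U : Subgroup GQ} (h : IsOpen (U : Set GQ)) : ∃ n, w ^ l ^ n ∈ U :=
  let ⟨_, a, b⟩ := P022K.G2.ex_lv h U.one_mem
  (k _ a.nrm a.opn).imp fun _ c => b c

theorem unit {u : ℤ_[2]} (h : PadicInt.toZMod u ≠ 0) : IsUnit u :=
  IsLocalRing.notMem_maximalIdeal.1 (PadicInt.ker_toZMod (p := 2) ▸ h)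

theorem f1 {X : M2 (ZMod 2)} : X.det ≠ 0 → X * X ≠ 1 → X = !![0, 1; 1, 1] ∨ X = !![1, 1; 1, 0] := by
  rw [eta_fin_two X, det_fin_two_of]
  generalize X 0 0 = a, X 0 1 = b, X 1 0 = c, X 1 1 = d
  revert a b c d
  decide

theorem f2 (X Y : M2 (ZMod 2)) (a : X.det ≠ 0) (b : X * X ≠ 1) (c : Y.det ≠ 0) (d : Y * Y ≠ 1) :
    (X - 1).det ≠ 0 ∧ (Y * X = 1 ∨ Y * (X * X) = 1) := by
  rw [det_fin_two]
  rcases f1 a b with rfl | rfl <;> rcases f1 c d with rfl | rfl <;> decide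

theorem det_cj (A : GQ →* M2 R) (g s : GQ) : (A (g * s * g⁻¹) - 1).det = (A s - 1).det := by
  have e : A g * A g⁻¹ = 1 := by rw [← map_mul, mul_inv_cancel, map_one]
  rw [map_mul, map_mul, ← e, ← sub_mul, ← mul_sub_one, e, det_mul, det_mul, mul_right_comm,
    ← det_mul, e, det_one, one_mul]

/-- the reduction modulo two -/
def br (A : GQ →* M2 ℤ_[2]) : GQ →* M2 (ZMod 2) :=
  (RingHom.mapMatrix PadicInt.toZMod).toMonoidHom.comp A

/-- the local data -/
structure Dt (l : ℕ) (P : Ideal (𝓞 Qb)) (A : GQ →* M2 ℤ_[2]) (f : ℤ_[2] →+* R) (a : GQ → M2 R) :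
    Prop where
  ov : Ov l P
  l2 : l ≠ 2
  mul : ∀ g ∈ dec P, ∀ h ∈ dec P, a (g * h) = a g * a h
  res : ∀ g ∈ inP P, a g = f.mapMatrix (A g)
  lc : ∃ U : Subgroup GQ, IsOpen (U : Set GQ) ∧ ∀ g ∈ U, g ∈ inP P → a g = 1
  l1 : IsOpen ((br A).ker : Set GQ)

/-- local cocycles -/
structure Co (P : Ideal (𝓞 Qb)) (a : GQ → M2 R) (x : GQ → Fin 2 → M) : Prop where
  coc : ∀ g ∈ dec P, ∀ h ∈ dec P, x (g * h) = x g + ac (a g) (x h)
  lc : ∃ U : Subgroup GQ, IsOpen (U : Set GQ) ∧ ∀ g ∈ U, g ∈ inP P → x g = 0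

theorem Co.smul (z : Co P a x) (r : R) : Co P a fun g => r • x g :=
  ⟨fun g b h c => by rw [z.coc g b h c, smul_add, ac_smul],
    z.lc.imp fun _ u => ⟨u.1, fun g b c => by rw [u.2 g b c, smul_zero]⟩⟩

theorem Co.sub (z : Co P a x) (z' : Co P a y) : Co P a fun g => x g - y g :=
  ⟨fun g b h c => by rw [z.coc g b h c, z'.coc g b h c, ac_sub, add_sub_add_comm],
    let ⟨U, o, u⟩ := z.lc; let ⟨U', o', u'⟩ := z'.lc
    ⟨U ⊓ U', o.inter o', fun g b c => by rw [u g b.1 c, u' g b.2 c, sub_self]⟩⟩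

variable (D : Dt l P A f a)
include D

theorem Dt.cob (m : Fin 2 → M) : Co P a fun g => ac (a g - 1) m :=
  ⟨fun g b h c => by simp only [ac_s1, D.mul g b h c, ac_mul, ac_sub, sub_add_sub_cancel'],
    D.lc.imp fun _ u => ⟨u.1, fun g b c => by rw [ac_s1, u.2 g b c, ac_one, sub_self]⟩⟩

theorem Dt.det (hs : s ∈ inP P) : (a s - 1).det = f (A s - 1).det := by
  rw [D.res s hs, RingHom.map_det, map_sub, map_one]

theorem Dt.odd (n : ℕ) : Odd (l ^ n) := (D.ov.1.odd_of_ne_two D.l2).pow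

/-- wild elements which act trivially modulo two -/
theorem Dt.kill (z : Co P a x) (hw : w ∈ inP P) (k : Wd l w) (t : br A w = 1) : x w = 0 := by
  have d := inP_le_dec hw
  have p : ∀ n : ℕ, ∃ N : M2 ℤ_[2], PadicInt.toZMod.mapMatrix N = n ∧
      x (w ^ n) = ac (f.mapMatrix N) (x w) := fun n => by
    induction n with
    | zero =>
      have := z.coc 1 (one_mem _) 1 (one_mem _)
      rw [D.res 1 (one_mem _), map_one, map_one, ac_one, mul_one, left_eq_add] at this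
      exact ⟨0, by simp, by rw [pow_zero, this]; funext i; simp [ac]⟩
    | succ n ih =>
      obtain ⟨N, e, h⟩ := ih
      refine ⟨N + A (w ^ n), ?_, by
        rw [pow_succ, z.coc _ (pow_mem d n) _ d, h, D.res _ (pow_mem hw n), map_add, add_ac]⟩
      rw [map_add, e, Nat.cast_succ]
      exact congrArg _ ((map_pow (br A) w n).trans (by rw [t, one_pow]))
  obtain ⟨U, o, u⟩ := z.lc
  obtain ⟨n, h⟩ := Wd.pow k o
  obtain ⟨N, e, c⟩ := p (l ^ n)
  have := det_kill (c.symm.trans (u _ h (pow_mem hw _)))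
  rw [← RingHom.map_det] at this
  refine ((unit ?_).map f).smul_eq_zero.1 this
  rw [RingHom.map_det, e, ← nsmul_one, ← Nat.cast_smul_eq_nsmul (ZMod 2), (D.odd n).natCast_zmod_two]
  simp

theorem Dt.red (z : Co P a x) (hs : s ∈ inP P) (r : ℤ_[2]) (h : ∀ y : GQ → Fin 2 → M, Co P a y →
    y s = 0 → ∀ g ∈ dec P, f r • y (g * s * g⁻¹) = 0) {n : ℕ}
    (hd : (A s - 1).det * r * (A s - 1).det ∣ 2 ^ n) :
    ∃ m, ∀ g ∈ dec P, 2 ^ n • x g = ac (a g - 1) m := by
  obtain ⟨t, ht⟩ := hd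
  have z1 := (z.smul (f (A s - 1).det)).sub (D.cob (ac (a s - 1).adjugate (x s)))
  have e1 : f (A s - 1).det • x s - ac (a s - 1) (ac (a s - 1).adjugate (x s)) = 0 := by
    rw [← ac_mul, mul_adjugate, ac_sm, ac_one, D.det hs, sub_self]
  refine ⟨f (t * ((A s - 1).det * r)) • ac (a s - 1).adjugate (x s), fun g hg => ?_⟩
  have c := conj_inP hg hs
  have e := (z1.smul (f r)).coc _ (inP_le_dec c) g hg
  rw [inv_mul_cancel_right, (z1.smul (f r)).coc g hg s (inP_le_dec hs), e1, smul_zero, ac_zero,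
    h _ z1 e1 g hg, add_zero, zero_add, eq_comm, ← sub_eq_zero, ← ac_s1] at e
  have k := congrArg (f t • ·) (det_kill e)
  simp only [D.det c, det_cj, smul_sub, smul_smul, smul_zero, sub_eq_zero, ← map_mul] at k
  rw [ac_smul, ← k, ← Nat.cast_smul_eq_nsmul R, ← map_natCast f, Nat.cast_pow, Nat.cast_two, ht]
  congr 2
  ring

theorem Dt.core (z : Co P a x) (hs : s ∈ inP P) {v : ℕ} (hd : (A s - 1).det ∣ 2 ^ v) :
    ∃ m, ∀ g ∈ dec P, 2 ^ (v + v + v) • x g = ac (a g - 1) m := by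
  by_cases h : ∀ w ∈ inP P, Wd l w → br A w = 1
  · refine D.red z hs (A s - 1).det (fun y k y0 g hg => ?_)
      (by rw [pow_add, pow_add]; exact mul_dvd_mul (mul_dvd_mul hd hd) hd)
    have c := conj_inP hg hs
    generalize g * s * g⁻¹ = t at c
    have m := mul_mem (mul_mem hs c) (inv_mem (mul_mem c hs))
    have wd := wd_comm D.ov hs c
    have e := k.coc _ (inP_le_dec m) _ (inP_le_dec (mul_mem c hs))
    have u := D.kill (D.cob (y t)) m wd (h _ m wd)
    rw [inv_mul_cancel_right, D.kill k m wd (h _ m wd), k.coc s (inP_le_dec hs) t (inP_le_dec c),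
      k.coc t (inP_le_dec c) s (inP_le_dec hs), y0, ac_zero, zero_add, zero_add, add_zero,
      sub_eq_zero.1 ((ac_s1 _ _).symm.trans u), ← sub_eq_zero, ← ac_s1] at e
    exact D.det hs ▸ det_kill e
  push Not at h
  obtain ⟨w, hw, wd, ne⟩ := h
  have p : ∀ t, Wd l t → br A t ≠ 1 → (br A t).det ≠ 0 ∧ br A t * br A t ≠ 1 := fun t k n => by
    obtain ⟨i, h⟩ := Wd.pow k D.l1
    obtain ⟨q, e⟩ := D.odd i
    rw [MonoidHom.mem_ker, map_pow, e, pow_succ] at h
    refine ⟨fun d => by simpa [d] using congrArg Matrix.det h, fun d => n ?_⟩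
    rwa [pow_mul, sq, d, one_pow, one_mul] at h
  obtain ⟨p1, p2⟩ := p w wd ne
  have u : IsUnit (A w - 1).det := unit (by
    rw [RingHom.map_det, map_sub, map_one]; exact (f2 _ _ p1 p2 p1 p2).1)
  refine D.red z hw 1 (fun y k y0 g hg => ?_) ((u.mul isUnit_one).mul u).dvd
  have c := conj_inP hg hw
  have wc : Wd l (g * w * g⁻¹) := fun U n o => (wd U n o).conj g
  obtain ⟨q1, q2⟩ := p _ wc fun e => ne (by
    rw [show w = g⁻¹ * (g * w * g⁻¹) * g by group, map_mul, map_mul, e, mul_one, ← map_mul,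
      inv_mul_cancel, map_one])
  generalize g * w * g⁻¹ = t at c wc q1 q2
  have fin : ∀ s ∈ inP P, Wd l s → y s = 0 → br A t * br A s = 1 → f 1 • y t = 0 :=
    fun s hs ws ys e => by
    have := D.kill k (mul_mem c hs) (wd_mul D.ov c hs wc ws) ((map_mul _ _ _).trans e)
    rw [k.coc t (inP_le_dec c) s (inP_le_dec hs), ys, ac_zero, add_zero] at this
    rw [this, smul_zero]
  exact (f2 _ _ p1 p2 q1 q2).2.elim (fin w hw wd y0) fun e => fin _ (mul_mem hw hw)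
    (wd_mul D.ov hw hw wd wd) (by rw [k.coc w (inP_le_dec hw) w (inP_le_dec hw), y0, ac_zero,
      add_zero]) (by rwa [map_mul])

omit D

/-- the twist as a homomorphism -/
def rh (e : Crv) : GQ →* M2 ℤ_[2] where
  toFun := e.rd
  map_one' := by rw [Crv.rd, Ra.sd_zero (P004S.nu_one _), map_one, one_smul]
  map_mul' g h := by rw [Crv.rd, Crv.rd, Crv.rd, Ra.sd_mul, map_mul, smul_mul_smul_comm]

theorem ex_s (e : Crv) {p : ℕ} (hp : p ∈ e.S) (h2 : p ≠ 2) (hσ : p ∉ e.σ) :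
    ∃ s ∈ inP (e.P p), (rh e s - 1).det ≠ 0 := by
  classical
  have o := e.ov p hp
  have u : IsUnit (P004Z.eps e.δ) :=
    IsUnit.of_pow_eq_one (jacobiSym.sq_one (a := -1) (b := e.δ) (by simp)) two_ne_zero
  by_cases d : p ∣ e.δ
  · have t := e.gn p hp h2
    refine ⟨_, t.1, ?_⟩
    have n := P004S.nu_tau o h2 (d := ds e.δ) ((associated_unit_mul_left _ _ u).squarefree_iff.2
      (Int.squarefree_natCast.2 e.ok.sq)) ((Int.natCast_dvd_natCast.2 d).mul_left _) t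
    rw [show rh e (e.τ p) = sd (ds e.δ) (e.τ p) • e.r (e.τ p) from rfl, sd, n, if_neg one_ne_zero,
      show e.r (e.τ p) = 1 from e.ur p d _ o _ t.1]
    rw [neg_smul, one_smul, ← neg_add', det_neg, ← two_smul ℤ_[2], det_smul]
    simp
  by_contra! k
  have n : ∀ g ∈ inP (e.P p), nu (ds e.δ) g = 0 := fun g hg =>
    P004S.nu_inert o h2 (fun c => d (by exact_mod_cast u.dvd_mul_left.1 c)) hg
  obtain ⟨v, v0, hv⟩ := En.kol (r := e.rp) (d := 1) (fun g hg => En.ep_inert (Ra.rep e) o h2 hg)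
    fun g hg => by
      have := congrArg PadicInt.Coe.ringHom (k g hg)
      rw [show rh e g = sd (ds e.δ) g • e.r g from rfl, Ra.sd_zero (n g hg), one_smul,
        RingHom.map_det, map_sub, map_one, map_zero] at this
      rwa [En.am, P004S.sg_of_zero (P004S.nu_one_left g), one_smul]
  obtain ⟨i, w, hw⟩ := En.ex_int (hq e.par.disc) v
  refine hσ (Finset.mem_filter.2 ⟨List.mem_toFinset.2 (List.mem_filter.2 ⟨hp, by simpa using d⟩),
    h2, w, fun c => v0 (funext fun i => ?_), fun g hg => funext fun t => Subtype.ext ?_⟩)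
  · simpa [c] using hw i
  · have := congrFun (hv g hg) t
    rw [P004S.ac, P004S.sg_of_zero (P004S.nu_one_left g), one_smul] at this
    simp only [mulVec, dotProduct, Fin.sum_univ_two] at this
    simp only [mulVec, dotProduct, Fin.sum_univ_two, PadicInt.coe_add, PadicInt.coe_mul, hw]
    rw [← this, mul_add, mul_left_comm, mul_left_comm _ _ (v 1)]
    rfl

end Va

open Vale.Agent.P022 Vale.Agent.P004K Va in
theorem van (r2 : RC2) : VAN := fun e b => by
  have : ∀ p, ∃ v, p ∈ e.S → p ≠ 2 → p ∉ e.σ → ∃ s ∈ H443.inP (e.P p), (rh e s - 1).det ∣ 2 ^ v :=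
    fun p => by
    by_cases h : p ∈ e.S ∧ p ≠ 2 ∧ p ∉ e.σ
    · obtain ⟨s, a, d⟩ := ex_s e h.1 h.2.1 h.2.2
      exact (IsDiscreteValuationRing.associated_pow_irreducible d PadicInt.irreducible_p).imp
        fun v k _ _ _ => ⟨s, a, k.dvd⟩
    · exact ⟨0, fun a b c => absurd ⟨a, b, c⟩ h⟩
  choose v hv using this
  let V := ∑ p ∈ e.S.toFinset, v p
  refine ⟨V + V + V, fun p hp h2 hσ j c Ψ h M _ _ T x z P o => ?_⟩
  obtain ⟨s, hs, d⟩ := hv p hp h2 hσ
  obtain ⟨t, t1, -⟩ := P004S.ex_conj o (e.ov p hp)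
  obtain ⟨t', -, t2⟩ := P004S.ex_conj (e.ov p hp) o
  have n := Subgroup.normal_of_index_eq_two (Ra.gk_idx (j := b.j) b.iq b.cc)
  have le : P022D.W.dec P ≤ b.Γ := fun g hg => by
    simpa [mul_assoc] using n.conj_mem _ (b.le p hp (t2 g hg)) t'
  have ps : ∀ g ∈ H443.inP P, Ψ g = 1 := fun g hg => h.ker g (Ra.unr_hc r2 b.iq (Ra.Chr.pos h) o
    (fun d => (h.cop p (Nat.mem_primeFactors.2 ⟨o.1, d, h.sq.ne_zero⟩)).1 hp)
    (le (P022D.W.inP_le_dec hg)) hg)
  have D : Dt p P (rh e) (cj j) (b.aa j Ψ) := by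
    refine ⟨o, h2, fun g a g' a' => Ra.aa_mul h (le a) (le a'),
      fun g hg => by rw [Fld.aa, ps g hg, one_smul]; rfl,
      ⟨(Ra.rj e j).ker ⊓ P004S.kn (P004T.ds e.δ), (Ra.rj_open e j).inter (P004S.kn_open _),
        fun g a k => Ra.aa_one (ps g k) a.2 a.1⟩,
      Subgroup.isOpen_mono (H₁ := (Ra.rep e).Kn 1 ⊓ P004S.kn (P004T.ds e.δ)) (fun g a => ?_)
        (((Ra.rep e).Kn_open 1).inter (P004S.kn_open _))⟩
    show PadicInt.toZMod.mapMatrix (sd _ g • e.r g) = 1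
    rw [Ra.sd_zero a.2, one_smul, ← (Ra.rep e).tr_one_iff.1 a.1]
    exact Matrix.ext fun i j => (P004S.rd_coe _).symm
  have Z : Co P (b.aa j Ψ) x :=
    ⟨fun g a g' a' => z.coc g (le a) g' (le a'), z.lc.imp fun _ u => ⟨u.1, fun g a _ => u.2 g a⟩⟩
  refine D.core Z (s := t⁻¹ * s * t⁻¹⁻¹) (by rw [inv_inv]; exact t1 s hs) ?_
  rw [det_cj]
  exact d.trans (pow_dvd_pow _ (Finset.single_le_sum (fun _ _ => Nat.zero_le _)
    (List.mem_toFinset.2 hp)))

end Vale.Agent.P004F
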